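import Mathlib

/-! Abstract controlled algebra: definitions. -/

set_option linter.unusedSectionVars false

namespace Vale.Agent.P228

/-- A star ring with a commutative family `D` of diagonal projections and four isometries with
orthogonal ranges. -/
class Base (A : Type*) [Ring A] [StarRing A] where
  D : Set A
  one_mem : (1 : A) ∈ D
  star_eq : ∀ P ∈ D, star P = P
  idem : ∀ P ∈ D, P * P = P
  comm : ∀ P ∈ D, ∀ Q ∈ D, P * Q = Q * P
  mul_mem : ∀ P ∈ D, ∀ Q ∈ D, P * Q ∈ D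
  compl_mem : ∀ P ∈ D, 1 - P ∈ D
  s : Fin 4 → A
  s_self : ∀ i, star (s i) * s i = 1
  s_ne : ∀ i j, i ≠ j → star (s i) * s j = 0
  s_push : ∀ i, ∀ P ∈ D, s i * P * star (s i) ∈ D
  s_pull : ∀ i, ∀ P ∈ D, star (s i) * P * s i ∈ D

variable {A : Type*} [Ring A] [StarRing A] [Algebra ℂ A] [StarModule ℂ A] [Base A]

/-- matrix units -/
def ee (i j : Fin 4) (x : A) : A := Base.s i * x * star (Base.s j : A)

/-- `v` maps diagonal projections to diagonal projections -/
def Mono (v : A) : Prop := ∀ P ∈ (Base.D : Set A), v * P * star v ∈ (Base.D : Set A)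

/-- based chain complex: projection `p`, differential `d` supported on `p` -/
structure Cpx (p d : A) : Prop where
  pD : p ∈ (Base.D : Set A)
  pd : p * d = d
  dp : d * p = d
  dd : d * d = 0

/-- contractible modulo an ideal -/
def CtrI (I : TwoSidedIdeal A) (p d : A) : Prop := ∃ K : A, d * K + K * d - p ∈ I

/-- contractible -/
def Ctr (p d : A) : Prop := ∃ K : A, d * K + K * d = p

def StarCl (I : TwoSidedIdeal A) : Prop := ∀ x ∈ I, star x ∈ I

/-- homotopic maps from a complex with differential `e` to a complex with differential `d` -/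
def Htp (d e f f' : A) : Prop := ∃ h : A, f - f' = d * h + h * e

/-- `f : (q,e) → (p,d)` is a chain homotopy equivalence -/
def HE (p d q e f : A) : Prop :=
  p * f = f ∧ f * q = f ∧ d * f = f * e ∧
    ∃ g : A, q * g = g ∧ g * p = g ∧ e * g = g * d ∧ Htp d d (f * g) p ∧ Htp e e (g * f) q

/-- local increasing family of regions -/
def Loc (M : ℝ → A) : Prop :=
  (∀ a, M a ∈ (Base.D : Set A)) ∧ ∀ a b : ℝ, a < b → ∀ T : A, (1 - M b) * T * M a = 0

/-- the complex has quotient complexes between any two regions of a local family -/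
def Cut (p d : A) : Prop :=
  ∀ M : ℝ → A, Loc M → ∀ a b : ℝ, a < b → ∃ P ∈ (Base.D : Set A),
    P * p = P ∧ P * d = P * d * P ∧ M a * (p - P) = 0 ∧ M b * P = P

/-- symmetric complex -/
structure Cx (A : Type*) where
  p : A
  d : A
  φ : A

structure Cx.OK (C : Cx A) : Prop extends Cpx C.p C.d where
  φs : star C.φ = C.φ
  pφ : C.p * C.φ = C.φ
  cyc : C.d * C.φ + C.φ * star C.d = 0

def Cx.Poinc (C : Cx A) : Prop := HE C.p C.d C.p (-star C.d) C.φ

structure Cx.Good (C : Cx A) : Prop where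
  ok : C.OK
  poinc : C.Poinc
  cut : Cut C.p C.d

/-- compression to a quotient complex -/
def Cx.cmp (P : A) (C : Cx A) : Cx A := ⟨P, P * C.d * P, P * C.φ * P⟩

/-- algebraic boundary -/
noncomputable def Cx.bd (C : Cx A) : Cx A :=
  ⟨ee 0 0 C.p + ee 1 1 C.p, Complex.I • (ee 0 0 C.d + ee 0 1 C.φ + ee 1 1 (star C.d)),
    ee 0 1 C.p + ee 1 0 C.p⟩

/-- sign change along a chain map -/
noncomputable def Cx.flip (C : Cx A) (u : A) : Cx A :=
  ⟨C.p, C.d, C.φ - (2 : ℂ) • (u * C.φ * star u)⟩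

def Cx.add (C C' : Cx A) : Cx A := ⟨C.p + C'.p, C.d + C'.d, C.φ + C'.φ⟩

def Cx.conj (ε : ℤ) (v : A) (C : Cx A) : Cx A :=
  ⟨v * C.p * star v, v * C.d * star v, ε • (v * C.φ * star v)⟩

def Cx.neg (C : Cx A) : Cx A := ⟨C.p, C.d, -C.φ⟩

/-- equivalence of symmetric complexes -/
def Cx.Eqv (C C' : Cx A) : Prop :=
  ∃ f : A, HE C'.p C'.d C.p C.d f ∧ Htp C'.d (-star C'.d) (f * C.φ * star f) C'.φ

/-- the hermitian form whose signature is the invariant of the complex -/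
def Cx.form (C : Cx A) : A := ee 0 0 C.φ + ee 0 1 C.d + ee 1 0 (star C.d)

structure Frame (A : Type*) [Ring A] where
  I : TwoSidedIdeal A
  N : TwoSidedIdeal A
  B : TwoSidedIdeal A
  χ : A

structure Frame.OK (f : Frame A) : Prop where
  starI : StarCl f.I
  starN : StarCl f.N
  IN : ∀ x ∈ f.I, ∀ y ∈ f.N, x * y = 0
  χs : star f.χ - f.χ ∈ f.N
  χχ : f.χ * f.χ - f.χ ∈ f.N
  χc : ∀ T : A, f.χ * T - T * f.χ ∈ f.N
  geo : ∃ (M : ℝ → A) (r a : ℝ), Loc M ∧ r < a ∧ (∀ x, x ∈ f.I ↔ ∃ r', r < r' ∧ M r' * x = 0) ∧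
    (∀ x, x ∈ f.B ↔ ∃ a', a' < a ∧ M a' * x = x)

/-- `u` is a chain self-map of `(p,d)` congruent to `χ` -/
structure Frame.Chi (f : Frame A) (p d u : A) : Prop where
  pu : p * u = u
  up : u * p = u
  ch : d * u = u * d
  md : u - f.χ * p ∈ f.N

/-- `P` is an admissible slab of `C` -/
structure Frame.Slab (f : Frame A) (C : Cx A) (P : A) : Prop where
  PD : P ∈ (Base.D : Set A)
  Pp : P * C.p = P
  Pd : P * C.d = P * C.d * P
  inI : C.p - P ∈ f.I
  inB : P ∈ f.B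

def Step (f : Frame A) (C C₁ : Cx A) : Prop :=
  ∃ P u : A, f.Slab C P ∧ f.Chi (C.cmp P).bd.p (C.cmp P).bd.d u ∧ C₁ = (C.cmp P).bd.flip u

def Red : List (Frame A) → Cx A → Cx A → Prop
  | [], C, C' => C' = C
  | f :: fs, C, C' => ∃ C₁, Step f C C₁ ∧ Red fs C₁ C'

/-- abstract signature on an ideal -/
structure Sig (A : Type*) [Ring A] [StarRing A] [Base A] (Γ : Type*) [AddCommGroup Γ] where
  K : TwoSidedIdeal A
  sig : A → Γ
  congr : ∀ x ∈ K, star x = x → ∀ g g' : A,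
    x = g' * (g * x * star g) * star g' → sig (g * x * star g) = sig x
  add : ∀ x ∈ K, ∀ y ∈ K, star x = x → star y = y → ∀ P ∈ (Base.D : Set A),
    x * P = x → y * P = 0 → sig (x + y) = sig x + sig y
  neg : ∀ x ∈ K, star x = x → sig (-x) = -sig x
  tf : ∀ (m : ℕ) (v : Γ), m ≠ 0 → m • v = 0 → v = 0

/-- algebraic null-cobordism `T = F ⊕ C ⊕ G` -/
structure NullData (I G : TwoSidedIdeal A) (C T : Cx A) (pF pG : A) : Prop where
  ok : T.OK
  FD : pF ∈ (Base.D : Set A)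
  GD : pG ∈ (Base.D : Set A)
  Fp : pF * C.p = 0
  Gp : pG * C.p = 0
  FG : pF * pG = 0
  tp : T.p = pF + C.p + pG
  inG : T.p ∈ G
  sub : T.d * pF = pF * T.d * pF
  quo : pG * T.d = pG * T.d * pG
  md : C.p * T.d * C.p = C.d
  mφ : C.p * T.φ * C.p = C.φ
  φG : T.φ * pG = pF * T.φ * pG
  ctr : CtrI I T.p T.d
  cone : CtrI I (pF + pG) (pF * T.d * pF + pF * T.φ * pG + star (pG * T.d * pG))
  cutF : Cut pF (pF * T.d * pF)
  cutG : Cut pG (pG * T.d * pG)

def Null (G : TwoSidedIdeal A) (C : Cx A) : Prop := ∃ T pF pG, NullData ⊥ G C T pF pG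

/-- suspension along a shift `T` -/
noncomputable def Cx.susp (T : A) (C : Cx A) : Cx A :=
  ⟨ee 0 0 C.p + ee 1 1 C.p,
    Complex.I • ee 0 0 C.d + ee 0 1 ((T - 1) * C.p) - Complex.I • ee 1 1 C.d,
    (1 / 2 : ℂ) • (ee 0 1 (C.φ * (1 + T)) + ee 1 0 (C.φ * (1 + star T)))⟩

/-- standard cubical complex -/
noncomputable def St : List A → A → Cx A
  | [], q => ⟨q, 0, q⟩
  | T :: Ts, q => (St Ts q).susp T

/-- restriction to an invariant region -/
def Cx.res (ω : A) (C : Cx A) : Cx A := ⟨ω * C.p, ω * C.d, ω * C.φ⟩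

/-- `T` is a unitary commuting with `C` -/
structure Cx.Sh (C : Cx A) (T : A) : Prop where
  u1 : star T * T = 1
  u2 : T * star T = 1
  cp : T * C.p = C.p * T
  cd : T * C.d = C.d * T
  cφ : T * C.φ = C.φ * T

/-- averaging data: `a` chain approximation of the generator, `e` its average -/
structure AvgData (C : Cx A) (a e b : A) : Prop where
  pa : C.p * a = a
  ap : a * C.p = a
  da : C.d * a = a * C.d
  pe : C.p * e = e
  ep : e * C.p = e
  de : C.d * e = e * C.d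
  db : C.d * b = b * C.d
  eb : e - C.p = b * (a - C.p)
  ae : a * e = e * a
  hae : Htp C.d C.d (a * e) e
  hφ : Htp C.d (-star C.d) (a * C.φ * star a) C.φ

def Cx.tw (C : Cx A) (e : A) : Cx A := ⟨C.p, C.d, C.φ - (e * C.φ + C.φ * star e)⟩

section Hom
variable {A' : Type*} [Ring A'] [StarRing A'] [Algebra ℂ A'] [StarModule ℂ A'] [Base A']

def Cx.map (h : A →⋆ₐ[ℂ] A') (C : Cx A) : Cx A' := ⟨h C.p, h C.d, h C.φ⟩

structure BaseHom (h : A →⋆ₐ[ℂ] A') : Prop where
  hD : ∀ P ∈ (Base.D : Set A), h P ∈ (Base.D : Set A')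
  hs : ∀ i, h (Base.s i) = Base.s i

structure Frame.Map (h : A →⋆ₐ[ℂ] A') (f : Frame A) (f' : Frame A') : Prop where
  hI : ∀ x ∈ f.I, h x ∈ f'.I
  hN : ∀ x ∈ f.N, h x ∈ f'.N
  hB : ∀ x ∈ f.B, h x ∈ f'.B
  hχ : h f.χ - f'.χ ∈ f'.N

end Hom

end Vale.Agent.P228
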